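import Mathlib

/-!
# P194: stable finiteness of group algebras: definitions
-/

namespace Vale.Agent.P194

universe u v

/-- The augmentation ideal of the group algebra `K[A]` (the elements whose coefficients sum to
zero, i.e. the kernel of the algebra map `K[A] → K` with `a ↦ 1`), as a subspace. -/
noncomputable def aug (K : Type u) [Field K] (A : Type v) [Group A] :
    Submodule K (MonoidAlgebra K A) :=
  LinearMap.ker (MonoidAlgebra.lift K K A (1 : A →* K)).toLinearMap

/-- `A` is residually a finite `p`-group. -/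
def ResiduallyFiniteP (p : ℕ) (A : Type v) [Group A] : Prop :=
  ∀ a : A, a ≠ 1 → ∃ N : Subgroup A, N.Normal ∧ N.FiniteIndex ∧
    (∀ g : A, ∃ k : ℕ, g ^ p ^ k ∈ N) ∧ a ∉ N

/-- `Q` is residually finite. -/
def ResiduallyFinite (Q : Type v) [Group Q] : Prop :=
  ∀ a : Q, a ≠ 1 → ∃ N : Subgroup Q, N.Normal ∧ N.FiniteIndex ∧ a ∉ N

/-- The powers `aug^n`, `n ≥ 1`, of the augmentation ideal of `K[A]` intersect in zero. -/
def AugSeparated (K : Type u) [Field K] (A : Type v) [Group A] : Prop :=
  ∀ z : MonoidAlgebra K A, (∀ n : ℕ, 1 ≤ n → z ∈ (aug K A) ^ n) → z = 0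

/-- `K[G]` is directly finite. -/
def DirectlyFinite (K : Type u) [Field K] (G : Type v) [Group G] : Prop :=
  ∀ a b : MonoidAlgebra K G, a * b = 1 → b * a = 1

/-- `K[G]` is stably finite: all its matrix rings are directly finite. -/
def StablyFinite (K : Type u) [Field K] (G : Type v) [Group G] : Prop :=
  ∀ (n : ℕ) (a b : Matrix (Fin n) (Fin n) (MonoidAlgebra K G)), a * b = 1 → b * a = 1

end Vale.Agent.P194
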