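import Mathlib
import Vale.Agent.P194.Defs

/-!
# P194: the kernel of `K[G] → K[G/A]`
-/

namespace Vale.Agent.P194

open MonoidAlgebra

universe u v

variable {K : Type u} [Field K]

theorem mem_aug {A : Type v} [Group A] {x : MonoidAlgebra K A} :
    x ∈ aug K A ↔ MonoidAlgebra.lift K K A (1 : A →* K) x = 0 := by
  simp [aug]

theorem single_sub_one_mem {A : Type v} [Group A] (a : A) :
    (single a 1 - 1 : MonoidAlgebra K A) ∈ aug K A := by
  rw [mem_aug]
  simp [map_sub]

theorem mul_mem_aug {A : Type v} [Group A] {x : MonoidAlgebra K A} (hx : x ∈ aug K A)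
    (y : MonoidAlgebra K A) : x * y ∈ aug K A := by
  rw [mem_aug] at *
  rw [map_mul, hx, zero_mul]

theorem pow_mono {R : Type*} [Ring R] [Algebra K R] {M N : Submodule K R} (h : M ≤ N) (n : ℕ) :
    M ^ n ≤ N ^ n := by
  induction n with
  | zero => simp
  | succ n ih =>
    rw [pow_succ, pow_succ]
    exact Submodule.mul_le.2 fun a ha b hb => Submodule.mul_mem_mul (ih ha) (h hb)

/-- an algebra isomorphism coming from a group isomorphism preserves the powers -/
theorem map_pow_mem {A B : Type v} [Group A] [Group B] (f : A →* B) (n : ℕ)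
    {x : MonoidAlgebra K A} (hx : x ∈ (aug K A) ^ n) :
    MonoidAlgebra.mapDomainAlgHom K K f x ∈ (aug K B) ^ n := by
  have h1 : (aug K A).map (MonoidAlgebra.mapDomainAlgHom K K f).toLinearMap ≤ aug K B := by
    rintro _ ⟨y, hy, rfl⟩
    have hy' := mem_aug.mp hy
    rw [mem_aug]
    have e : (MonoidAlgebra.lift K K B (1 : B →* K)).comp (MonoidAlgebra.mapDomainAlgHom K K f)
        = MonoidAlgebra.lift K K A (1 : A →* K) := by
      ext a
      simp
    have := congrArg (fun F => F y) e
    simp only [AlgHom.comp_apply] at this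
    exact this.trans hy'
  have h2 : MonoidAlgebra.mapDomainAlgHom K K f x ∈
      ((aug K A) ^ n).map (MonoidAlgebra.mapDomainAlgHom K K f).toLinearMap := ⟨x, hx, rfl⟩
  rw [Submodule.map_pow] at h2
  exact pow_mono h1 n h2


section Kernel

variable {G : Type v} [Group G] (A : Subgroup G)

/-- the component of `x` along the coset `A t` -/
noncomputable def comp (t : G) : MonoidAlgebra K G →ₗ[K] MonoidAlgebra K A where
  toFun x := comapDomain (fun a : A => (a : G) * t)
    (fun a b h => Subtype.ext (mul_right_cancel h)) x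
  map_add' x y := comapDomain_add _ _ _ _
  map_smul' c x := by
    ext a
    rfl

@[simp] theorem coeff_comp (t : G) (x : MonoidAlgebra K G) (a : A) :
    (comp A t x).coeff a = x.coeff ((a : G) * t) := by
  rfl

/-- conjugation on `K[A]` -/
noncomputable def conj [A.Normal] (g : G) : MonoidAlgebra K A →ₐ[K] MonoidAlgebra K A :=
  MonoidAlgebra.mapDomainAlgHom K K (MulAut.conjNormal (H := A) g).toMonoidHom

theorem coeff_conj [A.Normal] (g : G) (x : MonoidAlgebra K A) (a : A) :
    (conj A g x).coeff a = x.coeff ((MulAut.conjNormal (H := A) g).symm a) := by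
  have h : (conj A g x) = MonoidAlgebra.domCongr K K (MulAut.conjNormal (H := A) g) x := rfl
  rw [h, MonoidAlgebra.coeff_domCongr]

theorem comp_gen [A.Normal] (a : A) (g t : G) (x : MonoidAlgebra K G) :
    comp A t ((single ((a : G) * g) 1 - single g 1) * x) =
      (single a 1 - 1) * conj A g (comp A (g⁻¹ * t) x) := by
  ext b
  rw [coeff_comp, sub_mul, sub_mul, one_mul, coeff_sub, coeff_sub, Finsupp.sub_apply,
    Finsupp.sub_apply, coeff_single_mul_apply, coeff_single_mul_apply, coeff_single_mul_apply,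
    coeff_conj, coeff_conj, coeff_comp, coeff_comp]
  simp only [one_mul, MulAut.conjNormal_symm_apply]
  simp [mul_assoc]

/-- the generators of the kernel -/
def gens : Set (MonoidAlgebra K G) :=
  {x | ∃ (a : A) (g : G), x = single ((a : G) * g) 1 - single g 1}

variable {A}

theorem sub_rep_mem [A.Normal] (x : MonoidAlgebra K G) :
    x - MonoidAlgebra.mapDomain (fun g : G => (QuotientGroup.mk g : G ⧸ A).out) x ∈
      Submodule.span K (gens (K := K) A) := by
  induction x using MonoidAlgebra.induction_linear with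
  | zero => simp
  | add x y hx hy =>
    rw [MonoidAlgebra.mapDomain_add]
    have : x + y - (MonoidAlgebra.mapDomain (fun g : G => (QuotientGroup.mk g : G ⧸ A).out) x +
      MonoidAlgebra.mapDomain (fun g : G => (QuotientGroup.mk g : G ⧸ A).out) y) =
      (x - MonoidAlgebra.mapDomain (fun g : G => (QuotientGroup.mk g : G ⧸ A).out) x) +
      (y - MonoidAlgebra.mapDomain (fun g : G => (QuotientGroup.mk g : G ⧸ A).out) y) := by abel
    rw [this]
    exact add_mem hx hy
  | single g r =>
    rw [MonoidAlgebra.mapDomain_single]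
    set r' : G := (QuotientGroup.mk g : G ⧸ A).out with hr'
    have h1 : (QuotientGroup.mk r' : G ⧸ A) = QuotientGroup.mk g := Quotient.out_eq' _
    have h2 : g * r'⁻¹ ∈ A := by
      have h3 : g⁻¹ * r' ∈ A := by
        rw [← QuotientGroup.eq]; exact h1.symm
      have h4 : r'⁻¹ * g ∈ A := by
        have := A.inv_mem h3
        simpa using this
      have := (inferInstance : A.Normal).conj_mem _ h4 r'
      simpa using this
    have h5 : (single g r - single r' r : MonoidAlgebra K G) =
        r • (single (((⟨g * r'⁻¹, h2⟩ : A) : G) * r') 1 - single r' 1) := by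
      rw [smul_sub, MonoidAlgebra.smul_single, MonoidAlgebra.smul_single]
      simp
    rw [h5]
    exact Submodule.smul_mem _ _ (Submodule.subset_span ⟨_, _, rfl⟩)

theorem mem_span_of_ker [A.Normal] {x : MonoidAlgebra K G}
    (hx : MonoidAlgebra.mapDomain (QuotientGroup.mk' A) x = 0) :
    x ∈ Submodule.span K (gens (K := K) A) := by
  have h := sub_rep_mem (A := A) x
  have h2 : MonoidAlgebra.mapDomain (fun g : G => (QuotientGroup.mk g : G ⧸ A).out) x = 0 := by
    have e : MonoidAlgebra.mapDomain (fun g : G => (QuotientGroup.mk g : G ⧸ A).out) x =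
        MonoidAlgebra.mapDomain (fun q : G ⧸ A => q.out)
          (MonoidAlgebra.mapDomain (QuotientGroup.mk' A) x) := by
      apply MonoidAlgebra.coeff_injective
      exact Finsupp.mapDomain_comp
    rw [e, hx, MonoidAlgebra.mapDomain_zero]
  rwa [h2, sub_zero] at h

/-- step: kernel times level `n` is in level `n + 1` -/
theorem mul_level [A.Normal] {x y : MonoidAlgebra K G} (n : ℕ)
    (hx : MonoidAlgebra.mapDomain (QuotientGroup.mk' A) x = 0)
    (hy : ∀ t, comp A t y ∈ (aug K A) ^ n) : ∀ t, comp A t (x * y) ∈ (aug K A) ^ (n + 1) := by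
  have hx' := mem_span_of_ker hx
  clear hx
  intro t
  induction hx' using Submodule.span_induction with
  | mem x h =>
    obtain ⟨a, g, rfl⟩ := h
    rw [comp_gen, pow_succ']
    exact Submodule.mul_mem_mul (single_sub_one_mem a) (map_pow_mem _ n (hy _))
  | zero => simp
  | add x z _ _ hx hz => rw [add_mul, map_add]; exact add_mem hx hz
  | smul c x _ hx => rw [smul_mul_assoc, map_smul]; exact Submodule.smul_mem _ _ hx

theorem level_one [A.Normal] {x : MonoidAlgebra K G}
    (hx : MonoidAlgebra.mapDomain (QuotientGroup.mk' A) x = 0) :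
    ∀ t, comp A t x ∈ (aug K A) ^ 1 := by
  have hx' := mem_span_of_ker hx
  clear hx
  intro t
  rw [pow_one]
  induction hx' using Submodule.span_induction with
  | mem x h =>
    obtain ⟨a, g, rfl⟩ := h
    have := comp_gen (K := K) A a g t 1
    rw [mul_one] at this
    rw [this]
    exact mul_mem_aug (single_sub_one_mem a) _
  | zero => simp
  | add x z _ _ hx hz => rw [map_add]; exact add_mem hx hz
  | smul c x _ hx => rw [map_smul]; exact Submodule.smul_mem _ _ hx

theorem eq_zero_of_levels {x : MonoidAlgebra K G}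
    (hA : ∀ z : MonoidAlgebra K A, (∀ n : ℕ, 1 ≤ n → z ∈ (aug K A) ^ n) → z = 0)
    (hx : ∀ n : ℕ, ∀ t, comp A t x ∈ (aug K A) ^ (n + 1)) : x = 0 := by
  ext g
  have h := hA (comp A g x) (fun n hn => by
    obtain ⟨m, rfl⟩ : ∃ m, n = m + 1 := ⟨n - 1, by omega⟩
    exact hx m g)
  have h2 := coeff_comp A g x 1
  rw [h] at h2
  simpa using h2.symm

end Kernel

/-- an idempotent matrix over the kernel is zero -/
theorem idem_zero {G : Type v} [Group G] (A : Subgroup G) [A.Normal] {ι : Type*} [Fintype ι]
    [DecidableEq ι]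
    (hA : ∀ z : MonoidAlgebra K A, (∀ n : ℕ, 1 ≤ n → z ∈ (aug K A) ^ n) → z = 0)
    (e : Matrix ι ι (MonoidAlgebra K G)) (he : e * e = e)
    (hk : ∀ i j, MonoidAlgebra.mapDomain (QuotientGroup.mk' A) (e i j) = 0) : e = 0 := by
  have key : ∀ n : ℕ, ∀ i j, ∀ t, comp A t (e i j) ∈ (aug K A) ^ (n + 1) := by
    intro n
    induction n with
    | zero => intro i j; exact level_one (hk i j)
    | succ n ih =>
      intro i j t
      rw [← he, Matrix.mul_apply, map_sum]
      exact Submodule.sum_mem _ fun k _ => mul_level (n + 1) (hk i k) (ih k j) t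
  refine Matrix.ext fun i j => ?_
  exact eq_zero_of_levels hA (fun n => key n i j)

theorem mat_aux {G : Type v} [Group G] (A : Subgroup G) [A.Normal] {ι : Type*} [Fintype ι]
    [DecidableEq ι]
    (hA : ∀ z : MonoidAlgebra K A, (∀ n : ℕ, 1 ≤ n → z ∈ (aug K A) ^ n) → z = 0)
    (hQ : ∀ a b : Matrix ι ι (MonoidAlgebra K (G ⧸ A)), a * b = 1 → b * a = 1)
    (a b : Matrix ι ι (MonoidAlgebra K G)) (hab : a * b = 1) : b * a = 1 := by
  set φ : MonoidAlgebra K G →+* MonoidAlgebra K (G ⧸ A) :=
    MonoidAlgebra.mapDomainRingHom K (QuotientGroup.mk' A) with hφ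
  have h1 : a.map φ * b.map φ = 1 := by
    rw [← Matrix.map_mul, hab, Matrix.map_one _ (map_zero φ) (map_one φ)]
  have h2 := hQ _ _ h1
  have he : (1 - b * a) * (1 - b * a) = 1 - b * a := by
    have : b * a * (b * a) = b * a := by
      rw [mul_assoc, ← mul_assoc a b a, hab, one_mul]
    rw [sub_mul, mul_sub, mul_sub, this]
    simp
  have hk : ∀ i j, MonoidAlgebra.mapDomain (QuotientGroup.mk' A) ((1 - b * a) i j) = 0 := by
    intro i j
    have h3 : (1 - b * a).map φ = 0 := by
      rw [Matrix.map_sub _ (map_sub φ), Matrix.map_mul, h2,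
        Matrix.map_one _ (map_zero φ) (map_one φ), sub_self]
    have := congrFun (congrFun h3 i) j
    simpa [hφ] using this
  have := idem_zero A hA _ he hk
  exact (sub_eq_zero.mp this).symm

theorem stably {G : Type v} [Group G] (A : Subgroup G) [A.Normal]
    (hA : ∀ z : MonoidAlgebra K A, (∀ n : ℕ, 1 ≤ n → z ∈ (aug K A) ^ n) → z = 0)
    (h : IsStablyFiniteRing (MonoidAlgebra K (G ⧸ A))) :
    IsStablyFiniteRing (MonoidAlgebra K G) := by
  refine ⟨fun n => ⟨fun {a b} hab => ?_⟩⟩
  exact mat_aux A hA (fun a b hab => (h.isDedekindFiniteMonoid n).mul_eq_one_symm hab) a b hab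

theorem directly {G : Type v} [Group G] (A : Subgroup G) [A.Normal]
    (hA : ∀ z : MonoidAlgebra K A, (∀ n : ℕ, 1 ≤ n → z ∈ (aug K A) ^ n) → z = 0)
    (h : ∀ a b : MonoidAlgebra K (G ⧸ A), a * b = 1 → b * a = 1) :
    ∀ a b : MonoidAlgebra K G, a * b = 1 → b * a = 1 := by
  intro a b hab
  have key := mat_aux A hA (ι := Unit) (fun a b hab => ?_) (Matrix.of fun _ _ => a)
    (Matrix.of fun _ _ => b) ?_
  · have := congrFun (congrFun key ()) ()
    simpa [Matrix.mul_apply] using this
  · have h1 : a () () * b () () = 1 := by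
      have := congrFun (congrFun hab ()) ()
      simpa [Matrix.mul_apply] using this
    refine Matrix.ext fun i j => ?_
    simpa [Matrix.mul_apply] using h _ _ h1
  · refine Matrix.ext fun i j => ?_
    simpa [Matrix.mul_apply] using hab

end Vale.Agent.P194
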