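import Mathlib
import Vale.Agent.P194.Core

/-!
# P194: the augmentation ideal of a finite `p`-group in characteristic `p` is nilpotent
-/

namespace Vale.Agent.P194

open MonoidAlgebra

universe u v

variable {K : Type u} [Field K]

theorem aug_subsingleton {P : Type v} [Group P] [Subsingleton P] : aug K P = ⊥ := by
  rw [eq_bot_iff]
  intro x hx
  rw [mem_aug] at hx
  rw [Submodule.mem_bot]
  have h1 : x = single 1 (x.coeff 1) := by
    ext g
    rw [Subsingleton.elim g 1]
    simp
  rw [h1] at hx ⊢
  rw [MonoidAlgebra.lift_single] at hx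
  simp at hx
  rw [hx]
  simp

/-- `u * x` for a central `u` -/
theorem central_pow {P : Type v} [Group P] {z : P} (hz : z ∈ Subgroup.center P) (j : ℕ)
    (x : MonoidAlgebra K P) :
    x * (single z 1 - 1) ^ j = (single z 1 - 1) ^ j * x := by
  have h : Commute x (single z 1 - 1 : MonoidAlgebra K P) := by
    refine Commute.sub_right ?_ (Commute.one_right _)
    exact (single_commute (fun m => (Subgroup.mem_center_iff.mp hz m).symm)
      (fun r => Commute.one_left r) x).symm
  exact h.pow_right j

theorem divisible {P : Type v} [Group P] {z : P} (n : ℕ) (g : P) :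
    ∃ y : MonoidAlgebra K P, (single (z ^ n * g) 1 - single g 1 : MonoidAlgebra K P) =
      (single z 1 - 1) * y := by
  refine ⟨(∑ i ∈ Finset.range n, single z 1 ^ i) * single g 1, ?_⟩
  rw [← mul_assoc, mul_geom_sum, sub_mul, one_mul]
  simp [MonoidAlgebra.single_pow, MonoidAlgebra.single_mul_single]

theorem nilp (p : ℕ) [Fact p.Prime] [CharP K p] : ∀ n : ℕ, ∀ (P : Type v) [Group P] [Finite P],
    IsPGroup p P → Nat.card P = n → ∃ m : ℕ, 1 ≤ m ∧ (aug K P) ^ m = ⊥ := by
  intro n
  induction n using Nat.strong_induction_on with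
  | _ n ih =>
    intro P _ _ hP hn
    rcases subsingleton_or_nontrivial P with hs | hs
    · exact ⟨1, le_rfl, by rw [pow_one]; exact aug_subsingleton⟩
    · have hc := hP.center_nontrivial
      obtain ⟨⟨z, hz⟩, hz1⟩ := exists_ne (1 : Subgroup.center P)
      have hz1' : z ≠ 1 := fun h => hz1 (Subtype.ext h)
      set Z : Subgroup P := Subgroup.zpowers z with hZ
      have hZc : Z ≤ Subgroup.center P := by
        rw [hZ, Subgroup.zpowers_le]; exact hz
      have hZn : Z.Normal := ⟨fun a ha g => by
        have := Subgroup.mem_center_iff.mp (hZc ha) g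
        rw [this, mul_assoc, mul_inv_cancel, mul_one]
        exact ha⟩
      have hcard : Nat.card (P ⧸ Z) < n := by
        rw [← hn, ← Subgroup.card_mul_index Z]
        have h1 : 1 < Nat.card Z := by
          rw [Finite.one_lt_card_iff_nontrivial]
          exact ⟨⟨⟨z, Subgroup.mem_zpowers z⟩, 1, fun h => hz1' (congrArg Subtype.val h)⟩⟩
        have h2 : 0 < Z.index := Nat.pos_of_ne_zero Subgroup.index_ne_zero_of_finite
        have h3 : Nat.card (P ⧸ Z) = Z.index := rfl
        rw [h3]
        nlinarith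
      obtain ⟨m, hm1, hm⟩ := ih _ hcard (P ⧸ Z) (hP.to_quotient Z) rfl
      obtain ⟨k, hk⟩ := hP z
      -- `aug ^ m` consists of multiples of `z - 1`
      have hdiv : ∀ x ∈ (aug K P) ^ m, ∃ y, x = (single z 1 - 1) * y := by
        intro x hx
        have h1 : MonoidAlgebra.mapDomainAlgHom K K (QuotientGroup.mk' Z) x = 0 := by
          have := map_pow_mem (QuotientGroup.mk' Z) m hx
          rw [hm] at this
          simpa using this
        have h2 : x ∈ Submodule.span K (gens (K := K) Z) := mem_span_of_ker h1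
        clear hx h1
        induction h2 using Submodule.span_induction with
        | mem x h =>
          obtain ⟨⟨a, ha⟩, g, rfl⟩ := h
          rw [hZ, ← mem_powers_iff_mem_zpowers] at ha
          obtain ⟨i, rfl⟩ := ha
          exact divisible i g
        | zero => exact ⟨0, by simp⟩
        | add x y _ _ hx hy =>
          obtain ⟨a, rfl⟩ := hx
          obtain ⟨b, rfl⟩ := hy
          exact ⟨a + b, by rw [mul_add]⟩
        | smul c x _ hx =>
          obtain ⟨a, rfl⟩ := hx
          exact ⟨c • a, by rw [mul_smul_comm]⟩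
      have hpow : ∀ j : ℕ, ∀ x ∈ (aug K P) ^ (m * j), ∃ y, x = (single z 1 - 1) ^ j * y := by
        intro j
        induction j with
        | zero => intro x _; exact ⟨x, by simp⟩
        | succ j ihj =>
          intro x hx
          rw [mul_add, mul_one, pow_add] at hx
          induction hx using Submodule.mul_induction_on' with
          | mem_mul_mem a ha b hb =>
            obtain ⟨y, rfl⟩ := ihj a ha
            obtain ⟨y', rfl⟩ := hdiv b hb
            refine ⟨y * y', ?_⟩
            have h := central_pow (K := K) hz 1 y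
            rw [pow_one] at h
            rw [mul_assoc, ← mul_assoc y, h, pow_succ]
            simp only [mul_assoc]
          | add a _ b _ ha hb =>
            obtain ⟨y, hy⟩ := ha
            obtain ⟨y', hy'⟩ := hb
            exact ⟨y + y', by rw [hy, hy', mul_add]⟩
      have hq : (single z 1 - 1 : MonoidAlgebra K P) ^ (p ^ k) = 0 := by
        have : CharP (MonoidAlgebra K P) p :=
          charP_of_injective_algebraMap (algebraMap K (MonoidAlgebra K P)).injective p
        rw [sub_pow_char_pow_of_commute _ _ (Commute.one_right _), MonoidAlgebra.single_pow, hk]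
        simp [MonoidAlgebra.one_def]
      refine ⟨m * p ^ k, Nat.mul_pos hm1 (pow_pos (Fact.out : p.Prime).pos k), ?_⟩
      rw [eq_bot_iff]
      intro x hx
      obtain ⟨y, rfl⟩ := hpow _ x hx
      rw [hq, zero_mul]
      exact zero_mem _

/-- finitely many non-trivial elements can be avoided simultaneously -/
theorem avoid {A : Type v} [Group A] (Q : Subgroup A → Prop) (htop : Q ⊤)
    (hinf : ∀ M N, Q M → Q N → Q (M ⊓ N)) (h : ∀ a : A, a ≠ 1 → ∃ N, Q N ∧ a ∉ N)
    (S : Finset A) (hS : ∀ a ∈ S, a ≠ 1) : ∃ N, Q N ∧ ∀ a ∈ S, a ∉ N := by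
  classical
  induction S using Finset.induction_on with
  | empty => exact ⟨⊤, htop, by simp⟩
  | insert a S _ ih =>
    obtain ⟨N, hN, hN'⟩ := ih (fun b hb => hS b (Finset.mem_insert_of_mem hb))
    obtain ⟨M, hM, hM'⟩ := h a (hS a (Finset.mem_insert_self _ _))
    refine ⟨M ⊓ N, hinf _ _ hM hN, ?_⟩
    intro b hb hbN
    rw [Subgroup.mem_inf] at hbN
    rcases Finset.mem_insert.mp hb with rfl | hb
    · exact hM' hbN.1
    · exact hN' b hb hbN.2

/-- an element killed by all quotients in a separating family is zero -/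
theorem eq_zero_of_quotients {A : Type v} [Group A] (Q : Subgroup A → Prop)
    (_hn : ∀ N, Q N → N.Normal) (htop : Q ⊤)
    (hinf : ∀ M N, Q M → Q N → Q (M ⊓ N)) (h : ∀ a : A, a ≠ 1 → ∃ N, Q N ∧ a ∉ N)
    (x : MonoidAlgebra K A)
    (hx : ∀ N : Subgroup A, Q N → MonoidAlgebra.mapDomain (fun a : A => (a : A ⧸ N)) x = 0) :
    x = 0 := by
  classical
  set S : Finset A := ((x.coeff.support ×ˢ x.coeff.support).image
    (fun q => q.1⁻¹ * q.2)).filter (fun a => a ≠ 1) with hS
  obtain ⟨N, hN, hN'⟩ := avoid Q htop hinf h S (fun a ha => (Finset.mem_filter.mp ha).2)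
  have h0 := hx N hN
  have hinj : Set.InjOn (fun a : A => (a : A ⧸ N)) (x.coeff.support : Set A) := by
    intro a ha b hb hab
    by_contra hne
    have h1 : a⁻¹ * b ∈ N := QuotientGroup.eq.mp hab
    refine hN' (a⁻¹ * b) ?_ h1
    rw [hS, Finset.mem_filter]
    refine ⟨Finset.mem_image.mpr ⟨(a, b), Finset.mem_product.mpr ⟨ha, hb⟩, rfl⟩, ?_⟩
    intro h2
    exact hne (inv_mul_eq_one.mp h2)
  apply MonoidAlgebra.coeff_injective
  have h2 := Finsupp.mapDomain_injOn (M := K) (x.coeff.support : Set A) hinj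
  have h3 : Finsupp.mapDomain (fun a : A => (a : A ⧸ N)) x.coeff =
      Finsupp.mapDomain (fun a : A => (a : A ⧸ N)) 0 := by
    rw [Finsupp.mapDomain_zero]
    exact congrArg MonoidAlgebra.coeff h0
  have h4 : x.coeff ∈ {w : A →₀ K | (w.support : Set A) ⊆ (x.coeff.support : Set A)} := by simp
  have h5 : (0 : A →₀ K) ∈ {w : A →₀ K | (w.support : Set A) ⊆ (x.coeff.support : Set A)} := by
    simp
  exact h2 h4 h5 h3

/-- the powers of the augmentation ideal intersect in zero -/
theorem residual (p : ℕ) [Fact p.Prime] [CharP K p] {A : Type v} [Group A]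
    (hA : ResiduallyFiniteP p A) (z : MonoidAlgebra K A)
    (hz : ∀ n : ℕ, 1 ≤ n → z ∈ (aug K A) ^ n) : z = 0 := by
  refine eq_zero_of_quotients (fun N : Subgroup A => N.Normal ∧ N.FiniteIndex ∧
    (∀ g : A, ∃ k : ℕ, g ^ p ^ k ∈ N)) (fun N h => h.1) ?_ ?_ ?_ z ?_
  · exact ⟨inferInstance, inferInstance, fun g => ⟨0, Subgroup.mem_top _⟩⟩
  · rintro M N ⟨h1, h2, h3⟩ ⟨h4, h5, h6⟩
    refine ⟨inferInstance, inferInstance, fun g => ?_⟩
    obtain ⟨k, hk⟩ := h3 g
    obtain ⟨l, hl⟩ := h6 g
    refine ⟨k + l, Subgroup.mem_inf.mpr ⟨?_, ?_⟩⟩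
    · rw [pow_add, pow_mul]; exact M.pow_mem hk _
    · rw [pow_add, mul_comm, pow_mul]; exact N.pow_mem hl _
  · intro a ha
    obtain ⟨N, h1, h2, h3, h4⟩ := hA a ha
    exact ⟨N, ⟨h1, h2, h3⟩, h4⟩
  · rintro N ⟨h1, h2, h3⟩
    have hP : IsPGroup p (A ⧸ N) := by
      intro g
      obtain ⟨g, rfl⟩ := QuotientGroup.mk_surjective g
      obtain ⟨k, hk⟩ := h3 g
      refine ⟨k, ?_⟩
      rw [← QuotientGroup.mk_pow]
      exact (QuotientGroup.eq_one_iff _).mpr hk
    have : Finite (A ⧸ N) := Subgroup.finite_quotient_of_finiteIndex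
    obtain ⟨m, hm1, hm⟩ := nilp (K := K) p _ (A ⧸ N) hP rfl
    have := map_pow_mem (QuotientGroup.mk' N) m (hz m hm1)
    rw [hm] at this
    simpa using this

/-- the group algebra of a finite group over a field is stably finite -/
theorem finite_stably (P : Type v) [Group P] [Finite P] :
    IsStablyFiniteRing (MonoidAlgebra K P) := by
  classical
  have : Fintype P := Fintype.ofFinite P
  let e : MonoidAlgebra K P ≃ₗ[K] (P →₀ K) :=
    { toFun := MonoidAlgebra.coeff
      invFun := MonoidAlgebra.ofCoeff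
      left_inv := fun _ => rfl
      right_inv := fun _ => rfl
      map_add' := fun _ _ => rfl
      map_smul' := fun _ _ => rfl }
  let b : Module.Basis P K (MonoidAlgebra K P) := ⟨e⟩
  exact IsStablyFiniteRing.of_injective (Algebra.leftMulMatrix b)
    (Algebra.leftMulMatrix_injective b)

/-- the group algebra of a residually finite group over a field is stably finite -/
theorem resfin_stably {Q : Type v} [Group Q] (hQ : ResiduallyFinite Q) :
    IsStablyFiniteRing (MonoidAlgebra K Q) := by
  refine ⟨fun n => ⟨fun {a b} hab => ?_⟩⟩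
  refine Matrix.ext fun i j => ?_
  rw [← sub_eq_zero]
  refine eq_zero_of_quotients (fun N : Subgroup Q => N.Normal ∧ N.FiniteIndex)
    (fun N h => h.1) ?_ ?_ ?_ _ ?_
  · exact ⟨inferInstance, inferInstance⟩
  · rintro M N ⟨h1, h2⟩ ⟨h4, h5⟩
    exact ⟨inferInstance, inferInstance⟩
  · intro a ha
    obtain ⟨N, h1, h2, h4⟩ := hQ a ha
    exact ⟨N, ⟨h1, h2⟩, h4⟩
  · rintro N ⟨h1, h2⟩
    have : Finite (Q ⧸ N) := Subgroup.finite_quotient_of_finiteIndex
    have hst := finite_stably (K := K) (Q ⧸ N)
    set φ : MonoidAlgebra K Q →+* MonoidAlgebra K (Q ⧸ N) :=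
      MonoidAlgebra.mapDomainRingHom K (QuotientGroup.mk' N) with hφ
    have h3 : a.map φ * b.map φ = 1 := by
      rw [← Matrix.map_mul, hab, Matrix.map_one _ (map_zero φ) (map_one φ)]
    have h4 := (hst.isDedekindFiniteMonoid n).mul_eq_one_symm h3
    rw [← Matrix.map_mul] at h4
    have h5 := congrFun (congrFun h4 i) j
    have h6 : φ ((b * a) i j) = φ ((1 : Matrix (Fin n) (Fin n) (MonoidAlgebra K Q)) i j) := by
      have : (1 : Matrix (Fin n) (Fin n) (MonoidAlgebra K Q)).map φ = 1 :=
        Matrix.map_one _ (map_zero φ) (map_one φ)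
      rw [← this] at h5
      exact h5
    have h7 : φ ((b * a) i j - (1 : Matrix (Fin n) (Fin n) (MonoidAlgebra K Q)) i j) = 0 := by
      rw [map_sub, h6, sub_self]
    exact h7

end Vale.Agent.P194
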